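import Vale.Agent.P354A.Est
import Vale.Agent.P354A.Ceq
import Vale.Agent.P354CU.Uni
import Vale.Agent.P354H.Fin2
import Vale.Agent.P354X.Xpt

open scoped ContDiff
open MeasureTheory Set Filter Topology

namespace Vale.Agent.P354AE

open Vale.Agent.P354H Vale.Agent.P354C Vale.Agent.P354A
open Vale.Agent.P354CS (Di Di_ap Di_le sysK sysK_ok sysK_bd holds_iff pert_eq sc_pos)
open Vale.Agent.P354CU (Dm Di_Dm)

theorem Dm_Di (W : EuclideanSpace ℝ Ix) : Dm (Di W) = W := by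
  ext i
  have h := congrFun (Di_Dm (Di W)) i
  rw [Di_ap, Di_ap] at h
  exact (div_left_inj' (sc_pos i).ne').1 h

theorem dxl_congr (α : List (Fin 3)) {f g : ℝ × X3 → ℝ} {p : ℝ × X3} (h : f =ᶠ[𝓝 p] g) :
    dxl α f =ᶠ[𝓝 p] dxl α g := by
  induction α generalizing f g with
  | nil => exact h
  | cons j α ih =>
    refine ih (h.fderiv (𝕜 := ℝ) |>.mono fun q hq => ?_)
    simp only [dx, hq]

theorem Pb_congr {n : ℕ} {f g : ℝ × X3 → ℝ} {p : ℝ × X3} {c : ℝ} (h : f =ᶠ[𝓝 p] g)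
    (H : Pb n f p c) : Pb n g p c := fun α hα => (dxl_congr α h).self_of_nhds ▸ H α hα

theorem out_congr {k c : ℝ} {a : ℝ → ℝ} {J : ℕ} {w w' : ℝ × X3 → Ix → ℝ} {p : ℝ × X3}
    (h : w =ᶠ[𝓝 p] w') (H : Out k a c J w p) : Out k a c J w' p :=
  have e : ∀ i, cmp w i =ᶠ[𝓝 p] cmp w' i := fun i => h.mono fun _ hq => congrFun hq i
  ⟨fun i => Pb_congr (e i) (H.X i), fun i => Pb_congr (e i) (H.Y i),
    fun i hi => Pb_congr (e i) (H.Z i hi)⟩

theorem out_mono {k c d A0 : ℝ} {a A : ℝ → ℝ} {J : ℕ} {w : ℝ × X3 → Ix → ℝ} {p : ℝ × X3}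
    (hk : 0 < k) (ha : Wt k a A A0) (hp : 0 ≤ p.1) (h : c ≤ d) (H : Out k a c J w p) :
    Out k a d J w p :=
  ⟨fun i => (H.X i).mono le_rfl (mul_le_mul_of_nonneg_right h
      (mul_pos (ex_pos _ _ _) (ha.pos _)).le),
    fun i => (H.Y i).mono le_rfl (mul_le_mul_of_nonneg_right h (bY_mem hk ha _ hp _).1.le),
    fun i hi => (H.Z i hi).mono le_rfl (mul_le_mul_of_nonneg_right h (bZ_pos ha _ _ _).le)⟩

theorem good_pi {w : X3 → Ix → ℝ} (h : ∀ i, Good (cmp w i)) : Good w := by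
  refine ⟨contDiff_pi.2 fun i => (h i).1, HasCompactSupport.intro
    (isCompact_iUnion fun i => (h i).2) fun x hx => funext fun i => ?_⟩
  exact image_eq_zero_of_notMem_tsupport (f := cmp w i) fun c => hx (mem_iUnion.2 ⟨i, c⟩)

theorem hk_pi {n : ℕ} {w : X3 → Ix → ℝ} {R : ℝ} (g : ∀ i, Good (cmp w i))
    (h : ∀ i, Hk n (cmp w i) R) :
    Hk n (fun x => Dm (w x)) ((‖Dm‖ * (Fintype.card Ix * √R)) ^ 2) := by
  refine (Nk.clm (fun α hα => ?_) (good_pi g) Dm).hk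
  have hR : 0 ≤ R := (isq_nonneg _).trans (h Ix.O [] (Nat.zero_le _))
  refine n2_le_of_sq (by positivity) ?_
  have e : ∀ i x, pdl α (cmp w i) x = pdl α w x i := fun i x =>
    congrFun (pdl_clm (ContinuousLinearMap.proj (R := ℝ) (φ := fun _ : Ix => ℝ) i) α
      (good_pi g).1) x
  have i1 := fun i => ((g i).pdl α).c0.sq
  refine (integral_mono ((good_pi g).pdl α).c0.sq (integrable_finsetSum Finset.univ
    fun i _ => i1 i) fun x => ?_).trans ?_
  · have hs : 0 ≤ ∑ i, ‖pdl α (cmp w i) x‖ ^ 2 := Finset.sum_nonneg fun _ _ => sq_nonneg _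
    rw [← Real.le_sqrt (norm_nonneg _) hs, pi_norm_le_iff_of_nonneg (Real.sqrt_nonneg _)]
    intro i
    rw [← e]
    exact Real.le_sqrt_of_sq_le (Finset.single_le_sum
      (f := fun i => ‖pdl α (cmp w i) x‖ ^ 2) (fun _ _ => sq_nonneg _) (Finset.mem_univ i))
  · rw [integral_finsetSum _ fun i _ => i1 i, mul_pow, Real.sq_sqrt hR]
    refine (Finset.sum_le_sum fun i _ => h i α hα).trans ?_
    rw [Finset.sum_const, Finset.card_univ, nsmul_eq_mul]
    refine mul_le_mul_of_nonneg_right ?_ hR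
    exact_mod_cast Nat.le_self_pow two_ne_zero _

theorem eqn_of {K : ℝ × X3 → Ix → ℝ} {W : ℝ × X3 → EuclideanSpace ℝ Ix} (hK : ContDiff ℝ ∞ K)
    (hW : ContDiff ℝ ∞ W) {p : ℝ × X3} (h : (sysK K).Holds W p) :
    Eqn K (fun q => Di (W q)) p := by
  have := (holds_iff (hK.differentiable (by simp) p) (hW.differentiable (by simp) p)).1 h
  rw [pert_eq] at this
  exact this

theorem sm_Di {W : ℝ × X3 → EuclideanSpace ℝ Ix} (hW : ContDiff ℝ ∞ W) (i : Ix) :
    ContDiff ℝ ∞ (cmp (fun q => Di (W q)) i) := contDiff_pi.1 (Di.contDiff.comp hW) i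

theorem sol_of {K : ℝ × X3 → Ix → ℝ} {W : ℝ × X3 → EuclideanSpace ℝ Ix} {T : ℝ}
    (hK : ContDiff ℝ ∞ K) (hW : ContDiff ℝ ∞ W) (hc : HasCompactSupport W)
    (h : ∀ p : ℝ × X3, p.1 ∈ Icc 0 T → (sysK K).Holds W p) : Sol K (fun q => Di (W q)) T :=
  ⟨sm_Di hW, fun i => hc.comp_left (g := fun v => Di v i) (by simp),
    fun p hp => eqn_of hK hW (h p hp)⟩

theorem exist (hE : EST) : EXIST := by
  intro k a A A0 r J hk ha hJ
  obtain ⟨η, ε0, C, h1, h2, h3, H⟩ := hE k a A A0 r J hk ha hJ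
  refine ⟨η, ε0, C, h1, h2, h3, fun Cb R => ?_⟩
  obtain ⟨δ, c, d0, d1, G⟩ := global2 (fun m => 10000 * (1 + Cb (m + 1)))
    ((‖Dm‖ * (Fintype.card Ix * √R)) ^ 2)
  refine ⟨δ, c, d0, d1, fun K w0 ε hK b1 b2 e0 e1 g hd hR => ?_⟩
  have sK : ContDiff ℝ ∞ K := contDiff_pi.2 hK.sm
  have hi : ∀ W : ℝ × X3 → EuclideanSpace ℝ Ix, sl W 0 = (fun x => Dm (w0 x)) →
      sl (fun q => Di (W q)) 0 = w0 := fun W h => funext fun x => by
    rw [← Di_Dm (w0 x)]
    exact congrArg Di (congrFun h x)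
  obtain ⟨W, s1, s2, s3, s4, s5⟩ := G _ (sysK K) (fun x => Dm (w0 x)) (sysK_ok sK)
    (sysK_bd sK _ _ b1) (fun T => (b2 T).elim fun C' h => ⟨_, sysK_bd sK _ _ h⟩)
    ((good_pi g).clm Dm) (hk_pi g hR) (fun T => by
      choose c hc using fun i => ex_nk (cmp w0 i) (J + 5)
      have hR0 : ∀ i, Hk (J + 5) (cmp w0 i) (∑ j, c j ^ 2) := fun i α hα =>
        ((hc i).hk α hα).trans (Finset.single_le_sum (f := fun j => c j ^ 2)
          (fun _ _ => sq_nonneg _) (Finset.mem_univ i))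
      refine ⟨(‖Dm‖ * (Fintype.card Ix * √(C * Real.exp (k * T) * ∑ j, c j ^ 2))) ^ 2,
        fun T' hT W w1 w2 w3 w4 => ?_⟩
      have so := sol_of sK w1 w2 w4
      have h4 := (H K _ T' ε hK e0 e1 so (by rw [hi W w3]; exact hd)).2 _
        (by rw [hi W w3]; exact hR0) T' ⟨hT.1, le_rfl⟩
      have h5 := hk_pi (w := sl (fun q => Di (W q)) T') (n := 8)
        (R := C * Real.exp (k * T) * ∑ j, c j ^ 2)
        (fun i => ⟨P354H.sl_sm (so.sm i) _, P354HU.cs_sl (so.cs i) _⟩) fun i α hα => by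
          refine (h4 i α (by omega)).trans (mul_le_mul_of_nonneg_right
            (mul_le_mul_of_nonneg_left (Real.exp_le_exp.2 ?_) h3.le)
            (Finset.sum_nonneg fun _ _ => sq_nonneg _))
          exact mul_le_mul_of_nonneg_left hT.2 hk.le
      simp only [sl, Dm_Di] at h5
      exact h5)
  have s6 : ∀ T, ∃ W' : ℝ × X3 → EuclideanSpace ℝ Ix, Sol K (fun q => Di (W' q)) T ∧
      ∀ p : ℝ × X3, p.1 < T + 1 → W' p = W p := by
    intro T
    obtain ⟨W', a1, a2, a3⟩ := s5 (T + 1)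
    refine ⟨W', sol_of sK a1 a2 fun p hp => P354HL.holds_congr ?_ (s3 p (by linarith [hp.1])), a3⟩
    filter_upwards [(isOpen_lt continuous_fst continuous_const).mem_nhds
      (show p.1 < T + 1 by linarith [hp.2])] with q hq using a3 q hq
  refine ⟨fun q => Di (W q), sm_Di s1, hi W s2, fun p hp => eqn_of sK s1 (s3 p hp),
    fun p hp i => ?_, fun p hp => ?_, fun T => ?_⟩
  · refine (norm_le_pi_norm (Di (W p)) i).trans ((Di.le_opNorm _).trans ?_)
    exact (mul_le_of_le_one_left (norm_nonneg _) Di_le).trans ((s4 p.1 hp).zero p.2)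
  · obtain ⟨W', a1, a3⟩ := s6 p.1
    have h0 : sl W' 0 = fun x => Dm (w0 x) := by
      rw [← s2]
      exact funext fun x => a3 (0, x) (by simp; linarith)
    refine out_congr ?_ ((H K _ p.1 ε hK e0 e1 a1 (by rw [hi W' h0]; exact hd)).1 p ⟨hp, le_rfl⟩)
    filter_upwards [(isOpen_lt continuous_fst continuous_const).mem_nhds
      (show p.1 < p.1 + 1 by linarith)] with q hq using congrArg Di (a3 q hq)
  · obtain ⟨W', a1, a3⟩ := s6 T
    exact ⟨_, a1, fun p hp => congrArg Di (a3 p hp)⟩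

end Vale.Agent.P354AE
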