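import Vale.Agent.P354AE.Exist
import Vale.Agent.P354I.Core

open scoped ContDiff
open MeasureTheory Set Filter Topology

namespace Vale.Agent.P354AE

open Vale.Agent.P354H Vale.Agent.P354C Vale.Agent.P354A Vale.Agent.P354I
open Vale.Agent.P354X (maj maj_int maj_nn tsupp_pdl pdl_sl)

theorem pd_fst {f : ℝ → ℝ} (hf : ContDiff ℝ ∞ f) (j : Fin 3) :
    P354H.pd j (fun z : X3 => f z.1) = fun z => (e j).1 * deriv f z.1 := by
  funext z
  have h := (hf.differentiable (by simp) z.1).hasDerivAt.comp_hasFDerivAt z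
    (hasFDerivAt_fst (𝕜 := ℝ) (p := z))
  rw [P354H.pd, show fderiv ℝ (fun z : X3 => f z.1) z = _ from h.fderiv]
  simp [mul_comm]

theorem sb_step {f : ℝ → ℝ} (hf : ContDiff ℝ ∞ f) {k : ℕ} {c d : ℝ} (h0 : ∀ y, |f y| ≤ c)
    (h : Sb k (fun z : X3 => deriv f z.1) d) : Sb (k + 1) (fun z : X3 => f z.1) (max c d) := by
  refine sb_succ (fun z => (h0 _).trans (le_max_left _ _)) fun j => ?_
  rw [pd_fst hf]
  refine (h.smul ((contDiff_infty_iff_deriv.1 hf).2.comp contDiff_fst) (e j).1).mono le_rfl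
    (le_trans (mul_le_of_le_one_left h.nonneg ?_) (le_max_right _ _))
  exact (norm_fst_le (e j)).trans (norm_e j).le

theorem sb_cs (k : ℕ) {f : ℝ → ℝ} (hf : ContDiff ℝ ∞ f) (hc : HasCompactSupport f) :
    ∃ c, Sb k (fun z : X3 => f z.1) c := by
  induction k generalizing f with
  | zero =>
    obtain ⟨c, h⟩ := hf.continuous.bounded_above_of_compact_support hc
    exact ⟨c, sb_zero fun z => h _⟩
  | succ k ih =>
    obtain ⟨c, h⟩ := hf.continuous.bounded_above_of_compact_support hc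
    obtain ⟨d, h'⟩ := ih (contDiff_infty_iff_deriv.1 hf).2 hc.deriv
    exact ⟨_, sb_step hf h h'⟩

theorem sb_st (k : ℕ) (σ : ℝ) (hσ : |σ| = 1) :
    ∃ c, Sb k (fun z : X3 => Real.smoothTransition (σ * z.1)) c := by
  have hf : ContDiff ℝ ∞ fun y : ℝ => Real.smoothTransition (σ * y) :=
    Real.smoothTransition.contDiff.comp (contDiff_const.mul contDiff_id)
  have hc : HasCompactSupport (deriv fun y : ℝ => Real.smoothTransition (σ * y)) := by
    refine HasCompactSupport.intro (isCompact_closedBall 0 1) fun y hy => ?_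
    rw [mem_closedBall_zero_iff, Real.norm_eq_abs, ← one_mul |y|, ← hσ, ← abs_mul, hσ, not_le,
      lt_abs] at hy
    have c : Continuous fun y : ℝ => σ * y := by fun_prop
    rcases hy with hy | hy
    · refine (EventuallyEq.deriv_eq (f := fun _ => (1 : ℝ)) ?_).trans (deriv_const _ _)
      filter_upwards [(isOpen_lt continuous_const c).mem_nhds hy] with z hz
      exact Real.smoothTransition.one_of_one_le (le_of_lt hz)
    · refine (EventuallyEq.deriv_eq (f := fun _ => (0 : ℝ)) ?_).trans (deriv_const _ _)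
      filter_upwards [(isOpen_lt continuous_const c.neg).mem_nhds hy] with z hz
      exact Real.smoothTransition.zero_of_nonpos (by linarith [show 1 < -(σ * z) from hz])
  obtain ⟨d, h⟩ := sb_cs k (contDiff_infty_iff_deriv.1 hf).2 hc
  exact ⟨_, (sb_step hf (c := 1) (fun y => (abs_of_nonneg (Real.smoothTransition.nonneg
    (σ * y))).trans_le (Real.smoothTransition.le_one _)) h).low k.le_succ⟩

theorem cx_sm (n : ℕ) : ContDiff ℝ ∞ fun z : X3 => cx n z.1 :=
  (Real.smoothTransition.contDiff.comp (contDiff_const.sub contDiff_fst)).mul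
    (Real.smoothTransition.contDiff.comp (contDiff_const.add contDiff_fst))

theorem norm_mul_le' : ‖ContinuousLinearMap.mul ℝ ℝ‖ ≤ 1 := ContinuousLinearMap.opNorm_mul_le ℝ ℝ

theorem sb_cx (k : ℕ) : ∃ c, ∀ n : ℕ, Sb k (fun z : X3 => cx n z.1) c := by
  obtain ⟨c, h⟩ := sb_st k (-1) (by simp)
  obtain ⟨d, h'⟩ := sb_st k 1 (by simp)
  refine ⟨2 ^ k * (‖ContinuousLinearMap.mul ℝ ℝ‖ * c * d), fun n => ?_⟩
  have s : ∀ σ : ℝ, ContDiff ℝ ∞ fun z : X3 => Real.smoothTransition (σ * z.1) := fun σ =>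
    Real.smoothTransition.contDiff.comp (contDiff_const.mul contDiff_fst)
  have h1 := (((h.tr (-(n + 1), 0)).clm (tr_sm _ (s _)) (ContinuousLinearMap.mul ℝ ℝ)).ap
    (h'.tr (n + 1, 0)) ((ContinuousLinearMap.mul ℝ ℝ).contDiff.comp (tr_sm _ (s _))) (tr_sm _ (s _)))
  refine (congrArg (fun f => Sb k f _) (funext fun z => ?_)).mp h1
  simp only [ap, tr, cx, ContinuousLinearMap.mul_apply', Prod.fst_add]
  congr 2 <;> ring

/-- Pointwise product estimate. -/
theorem pt_mul {k : ℕ} {f g : X3 → ℝ} {s d : ℝ} {x : X3} (hf : ContDiff ℝ ∞ f)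
    (hg : ContDiff ℝ ∞ g) (h : Sb k f s) (h' : ∀ α : List (Fin 3), α.length ≤ k → |pdl α g x| ≤ d)
    (α : List (Fin 3)) (hα : α.length ≤ k) :
    |pdl α (fun z => f z * g z) x| ≤ 2 ^ α.length * (s * d) := by
  induction α generalizing f g k with
  | nil =>
    rw [List.length_nil, pow_zero, one_mul, pdl, abs_mul]
    exact mul_le_mul (h.zero x) (h' [] (Nat.zero_le _)) (abs_nonneg _) h.nonneg
  | cons j α ih =>
    obtain ⟨k, rfl⟩ : ∃ m, k = m + 1 := ⟨k - 1, by rw [List.length_cons] at hα; omega⟩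
    have hα' : α.length ≤ k := by simpa using hα
    have e1 : P354H.pd j (fun z => f z * g z) =
        (fun z => P354H.pd j f z * g z) + fun z => f z * P354H.pd j g z := by
      funext z
      simp only [P354H.pd, Pi.add_apply]
      rw [fderiv_fun_mul (dif hf z) (dif hg z)]
      simp only [add_apply, smul_apply, smul_eq_mul]
      ring
    rw [pdl, e1, pdl_add α ((pd_sm j hf).mul hg) (hf.mul (pd_sm j hg)), List.length_cons, pow_succ]
    have h1 := ih (pd_sm j hf) hg (h.pd j) (fun β hβ => h' β (hβ.trans k.le_succ)) hα'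
    have h2 := ih hf (pd_sm j hg) (h.low k.le_succ) (fun β hβ => h' (j :: β) (by simpa using hβ)) hα'
    exact (abs_add_le _ _).trans (by linarith)

theorem box_of {z : X3} (h : z.2 ∉ Icc (-4 : ℝ) 4 ×ˢ Icc (-4 : ℝ) 4) : 16 ≤ r2 z := by
  rw [mem_prod, mem_Icc, mem_Icc, ← abs_le, ← abs_le, not_and_or, not_le, not_le] at h
  unfold r2
  rcases h with h | h <;> nlinarith [sq_abs z.2.1, sq_abs z.2.2, sq_nonneg z.2.1, sq_nonneg z.2.2]

theorem solve (hE : EXIST) : SOLVE := by
  intro k s a A A0 C hk hs ha hsa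
  obtain ⟨η, ε0, C0, h1, h2, h3, H⟩ := hE k a A A0 4 4 hk ha (by norm_num)
  obtain ⟨cc, hc⟩ := sb_cx 9
  have c0 : 0 ≤ cc := (hc 0).nonneg
  obtain ⟨δ0, c, d0, -, G⟩ := H (fun m => |C m| * Real.exp (k / 2) + k / 2)
    ((2 ^ 9 * cc) ^ 2 * ∫ y, maj 1 4 y)
  refine ⟨min (min 1 δ0) ((η / (|C 10| + 1)) ^ 2), by positivity, c, fun ε' he => ?_⟩
  refine ⟨min 1 (min ε0 (ε' / C0) / (2 ^ 9 * cc + 1)), by positivity,
    fun δ hδ ρ hρ K hK w0 hw => ?_⟩
  set ε := min 1 (min ε0 (ε' / C0) / (2 ^ 9 * cc + 1)) with hε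
  have e0 : 0 < ε := by positivity
  have e1 : ε ≤ 1 := min_le_left _ _
  have e2 : 2 ^ 9 * cc * ε ≤ min ε0 (ε' / C0) := by
    have := min_le_right 1 (min ε0 (ε' / C0) / (2 ^ 9 * cc + 1))
    rw [← hε, le_div_iff₀ (by positivity)] at this
    nlinarith
  have r1 : √ρ ≤ 1 := Real.sqrt_le_one.2 (hρ.2.trans ((min_le_left _ _).trans (min_le_left _ _)))
  have r2' : C 10 * √ρ ≤ η := by
    have h4 : √ρ ≤ η / (|C 10| + 1) := Real.sqrt_le_iff.2 ⟨by positivity,
      hρ.2.trans (min_le_right _ _)⟩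
    rw [le_div_iff₀ (by positivity)] at h4
    nlinarith [le_abs_self (C 10), Real.sqrt_nonneg ρ]
  have sK : ∀ i, ContDiff ℝ ∞ (cmp K i) := fun i => contDiffOn_univ.1 (hK.smooth i)
  have sU : ∀ i, ContDiff ℝ ∞ (Ub k K i) := fun i => (sK i).sub contDiff_const
  have hB : Bg k η (4 + 6) K := ⟨sK, fun i p hp α hα => by
    have h4 : dxl α (Ub k K i) p = pdl α (fun z => K (p.1, z) i - U0 k i) p.2 :=
      (congrFun (pdl_sl α (sU i) p.1) p.2).symm
    rw [h4, gB]
    by_cases hq : isQ i = true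
    · have h5 : U0 k i = 0 := by cases i <;> first | rfl | exact absurd hq (by decide)
      simp only [h5, sub_zero, hq, if_true]
      refine (hK.boundQ 10 p.1 hp i hq α hα p.2).trans ?_
      rw [ex, show -(16 * k / 16) * p.1 = -k * p.1 by ring]
      exact mul_le_mul_of_nonneg_right r2' (Real.exp_pos _).le
    · rw [if_neg hq]
      refine (hK.bound 10 p.1 (by linarith) i α hα p.2).trans ?_
      rw [ex, show -(8 * k / 16) * p.1 = -k * p.1 / 2 by ring]
      exact mul_le_mul_of_nonneg_right r2' (Real.exp_pos _).le⟩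
  have hb : ∀ m t, -1 ≤ t → ∀ i, Sb m (cmp (sl K t) i) (|C m| * Real.exp (k / 2) + k / 2) := by
    intro m t ht i
    have h4 : ‖U0 k i‖ ≤ k / 2 := by
      have : |-k / 2| ≤ k / 2 := abs_le.2 ⟨by linarith, by linarith⟩
      cases i <;> first | exact this | exact norm_zero.trans_le (by positivity)
    have h5 := (hK.bound m t ht i).add (P354CS.sb_const m h4) (P354H.sl_sm (sU i) t) contDiff_const
    refine ((congrArg (fun f => Sb m f _) (funext fun z => ?_)).mp h5).mono le_rfl ?_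
    · exact sub_add_cancel _ _
    · refine add_le_add_left (mul_le_mul ((mul_le_mul_of_nonneg_right (le_abs_self _)
        (Real.sqrt_nonneg _)).trans (mul_le_of_le_one_right (abs_nonneg _) r1))
        (Real.exp_le_exp.2 (by nlinarith)) (Real.exp_pos _).le (abs_nonneg _)) _
  have hd : ∀ (n : ℕ) i (α : List (Fin 3)), α.length ≤ 9 → ∀ z,
      |pdl α (cmp (fun z : X3 => cx n z.1 • w0 z) i) z| ≤
        2 ^ 9 * cc * ε * (1 + z.1 ^ 2) ^ (-s / 2) := fun n i α hα z => by
    refine (pt_mul (cx_sm n) (hw.smooth i) (hc n) (fun β hβ => hw.bound i β hβ z) α hα).trans ?_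
    refine (mul_le_mul_of_nonneg_right (pow_mono2 hα) (by positivity)).trans (le_of_eq (by ring))
  have hg : ∀ (n : ℕ) i, Good (cmp (fun z : X3 => cx n z.1 • w0 z) i) := fun n i => by
    refine ⟨(cx_sm n).mul (hw.smooth i), HasCompactSupport.intro
      ((isCompact_Icc (a := -((n : ℝ) + 1)) (b := n + 1)).prod
        ((isCompact_Icc (a := (-4 : ℝ)) (b := 4)).prod (isCompact_Icc (a := (-4 : ℝ)) (b := 4))))
      fun z hz => ?_⟩
    rw [mem_prod, not_and_or] at hz
    rcases hz with hz | hz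
    · rw [mem_Icc, not_and_or, not_le, not_le] at hz
      have : cx n z.1 = 0 := by
        unfold cx
        rcases hz with hz | hz
        · rw [Real.smoothTransition.zero_of_nonpos (x := n + 1 + z.1) (by linarith), mul_zero]
        · rw [Real.smoothTransition.zero_of_nonpos (x := n + 1 - z.1) (by linarith), zero_mul]
      simp [P354A.cmp, this]
    · simp [P354A.cmp, hw.supp z (box_of hz)]
  have hH : ∀ (n : ℕ) i, Hk 8 (cmp (fun z : X3 => cx n z.1 • w0 z) i)
      ((2 ^ 9 * cc) ^ 2 * ∫ y, maj 1 4 y) := fun n i α hα => by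
    rw [← integral_const_mul]
    refine integral_mono ((hg n i).pdl α).c0.sq ((maj_int one_ne_zero 4).const_mul _) fun z => ?_
    by_cases hz : z.2 ∈ Icc (-4 : ℝ) 4 ×ˢ Icc (-4 : ℝ) 4
    · have h4 := pow_le_pow_left₀ (abs_nonneg _) (hd n i α (by omega) z) 2
      refine h4.trans ?_
      simp only [maj, indicator_of_mem hz, mul_one, one_mul]
      rw [mul_assoc, mul_pow]
      refine mul_le_mul_of_nonneg_left ?_ (sq_nonneg _)
      have h5 : (1 : ℝ) ≤ 1 + z.1 ^ 2 := le_add_of_nonneg_right (sq_nonneg _)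
      have h6 : ((1 + z.1 ^ 2) ^ (-s / 2)) ^ 2 ≤ (1 + z.1 ^ 2)⁻¹ := by
        rw [← Real.rpow_natCast, ← Real.rpow_mul (by positivity), ← Real.rpow_neg_one]
        exact Real.rpow_le_rpow_of_exponent_le h5 (by push_cast; linarith)
      rw [mul_pow]
      exact (mul_le_of_le_one_left (sq_nonneg _) (pow_le_one₀ e0.le e1)).trans h6
    · have e2 : tsupport (cmp (fun z : X3 => cx n z.1 • w0 z) i) ⊆
          {y : X3 | y.2 ∈ Icc (-4 : ℝ) 4 ×ˢ Icc (-4 : ℝ) 4} := by
        refine closure_minimal (fun y hy => ?_)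
          ((isClosed_Icc.prod isClosed_Icc).preimage continuous_snd)
        by_contra c
        exact hy (by simp [P354A.cmp, hw.supp y (box_of c)])
      simp only [image_eq_zero_of_notMem_tsupport fun c => hz (e2 (tsupp_pdl α _ c)), norm_zero]
      exact le_of_eq_of_le (by simp) (mul_nonneg (sq_nonneg _) (maj_nn _ _ _))
  have hm : 0 < min ε0 (ε' / C0) := by positivity
  choose w w1 w2 w3 w4 w5 w6 using fun n : ℕ => G K (fun z : X3 => cx n z.1 • w0 z) _ hB
    (fun m t ht => hb m t ht.1) (fun T => ⟨_, fun m t ht => hb m t ht.1⟩) hm (min_le_left _ _)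
    (hg n) ⟨fun i α hα z => (hd n i α hα z).trans (mul_le_mul e2 (hsa _) (by positivity) hm.le),
      fun z hz => by
        rw [hw.supp z (box_of fun c => ?_), smul_zero]
        rw [mem_prod, mem_Icc, mem_Icc, ← abs_le, ← abs_le] at c
        rcases hz with hz | hz <;> linarith [c.1, c.2]⟩ (hH n)
  have d1 : δ ≤ δ0 := hδ.2.trans ((min_le_left _ _).trans (min_le_right _ _))
  refine ⟨w, w1, fun n z => congrFun (w2 n) z, fun n p hp => w3 n p (by linarith),
    fun n p hp => w4 n p ⟨by linarith [hp.1], hp.2⟩, fun n p hp => ?_, w6⟩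
  refine out_mono hk ha hp ?_ (w5 n p hp)
  rw [← le_div_iff₀' h3]
  exact min_le_right _ _

/-- Everything but the barrier inequalities. -/
theorem solve_of (hY : YZIN) : SOLVE :=
  solve (exist (est (P354X.xpt (P354X.xen ceq)) hY))

end Vale.Agent.P354AE
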